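import Vale.Agent.P158.Spec3
import Vale.Agent.P158.Units
import Vale.Agent.P158.Basic

/-!
Slope bound, events: a pair of walks ending and starting at the two ends of an entrance edge, with
a margin over all competitors avoiding that edge.
-/

open MeasureTheory Filter Topology

namespace Vale.Agent.P158.SlopeAux

/-- The possible first ends of an entrance edge of the origin. -/
def preds (k : ℤ) : Finset V := ({(-1, 0), (0, -1)} : Finset V).filter fun w => lev k w = -1

/-- The entrance edge at height `h`. -/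
def eH (k : ℤ) (w : V) (h : ℤ) : Edge := edgeOf (w + pt k 0 h) (pt k 0 h)

theorem adj_add {x y : V} (h : Adj x y) (v : V) : Adj (x + v) (y + v) := by
  simpa [Adj] using h

theorem lev_add_pt (k : ℤ) (v : V) (h : ℤ) : lev k (v + pt k 0 h) = lev k v := by
  simp [lev, pt]; ring

theorem pt_add (k h h' : ℤ) : pt k 0 h + pt k 0 h' = pt k 0 (h + h') := by
  simp [pt, mul_add]; ring

theorem preds_spec {k : ℤ} {w : V} (hw : w ∈ preds k) : Adj w 0 ∧ lev k w = -1 := by
  obtain ⟨h1, h2⟩ := Finset.mem_filter.1 hw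
  refine ⟨?_, h2⟩
  simp only [Finset.mem_insert, Finset.mem_singleton] at h1
  rcases h1 with rfl | rfl <;> simp [Adj]

theorem eH_adj {k : ℤ} {w : V} (hw : Adj w 0) (h : ℤ) : Adj (w + pt k 0 h) (pt k 0 h) := by
  simpa using adj_add hw (pt k 0 h)

theorem eH_shift (k : ℤ) (w : V) (y h : ℤ) : eShift (pt k 0 y) (eH k w h) = eH k w (h + y) := by
  rw [eH, eH, ← Units.edgeOf_add, add_assoc, pt_add]

theorem eH_inj {k : ℤ} {w : V} {h h' : ℤ} (e : eH k w h = eH k w h') : h = h' := by
  have h1 : eH k w h = eShift (pt k 0 h) (eH k w 0) := by rw [eH_shift, zero_add]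
  have h2 : eH k w h' = eShift (pt k 0 h') (eH k w 0) := by rw [eH_shift, zero_add]
  rw [h1, h2] at e
  have e2 := congrArg (fun x : Edge => x.1.2) e
  simpa [eShift, pt] using e2

theorem eShift_inj (v : V) {e e' : Edge} (h : eShift v e = eShift v e') : e = e' :=
  (Units.eShiftEquiv v).injective h

theorem lev_step {k : ℤ} (hk : k = 0 ∨ k = 1) {x y : V} (h : Adj x y) :
    lev k y ≤ lev k x + 1 ∧ lev k x ≤ lev k y + 1 := by
  rw [adj_iff] at h
  rcases hk with rfl | rfl <;> simp only [lev] <;> omega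

/-- A piece of an integer indexed path as a walk. -/
theorem seg_walk {t : Conf} {γ : ℤ → V} (a : ℤ) (n : ℕ)
    (hadj : ∀ m, a ≤ m → m < a + n → Adj (γ m) (γ (m + 1))) :
    ∃ p : grid.Walk (γ a) (γ (a + n)),
      plen t p = ∑ m ∈ Finset.Ico a (a + n), wt t (γ m) (γ (m + 1)) ∧
      (∀ v ∈ p.support, ∃ m, a ≤ m ∧ m ≤ a + n ∧ v = γ m) ∧
      ∀ d ∈ p.darts, ∃ m, a ≤ m ∧ m < a + n ∧
        edgeOf d.toProd.1 d.toProd.2 = edgeOf (γ m) (γ (m + 1)) := by
  induction n with
  | zero =>
    refine ⟨(SimpleGraph.Walk.nil).copy rfl (by simp), by simp [plen], fun v hv => ?_, by simp⟩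
    simp only [SimpleGraph.Walk.support_copy, SimpleGraph.Walk.support_nil,
      List.mem_singleton] at hv
    exact ⟨a, le_rfl, by simp, hv⟩
  | succ n ih =>
    obtain ⟨p, hlen, hsup, hd⟩ := ih fun m h1 h2 => hadj m h1 (by push_cast; omega)
    have hstep : grid.Adj (γ (a + n)) (γ (a + n + 1)) :=
      hadj (a + n) (by omega) (by push_cast; omega)
    refine ⟨(p.concat hstep).copy rfl (by push_cast; ring_nf), ?_, ?_, ?_⟩
    · rw [plen_copy, plen_concat, hlen]
      rw [show (a + ((n + 1 : ℕ) : ℤ)) = a + n + 1 by push_cast; ring,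
        ← Finset.Ico_union_Ico_eq_Ico (show a ≤ a + (n : ℤ) by omega)
          (show a + (n : ℤ) ≤ a + (n : ℤ) + 1 by omega),
        Finset.sum_union (Finset.Ico_disjoint_Ico_consecutive _ _ _), Units.Ico_one,
        Finset.sum_singleton]
    · intro v hv
      simp only [SimpleGraph.Walk.support_copy, SimpleGraph.Walk.support_concat,
        List.mem_append, List.mem_singleton] at hv
      rcases hv with hv | rfl
      · obtain ⟨m, h1, h2, h3⟩ := hsup v hv
        exact ⟨m, h1, by push_cast; omega, h3⟩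
      · exact ⟨a + n + 1, by omega, by push_cast; omega, rfl⟩
    · intro d hd'
      rw [SimpleGraph.Walk.darts_copy, SimpleGraph.Walk.darts_concat, List.concat_eq_append,
        List.mem_append, List.mem_singleton] at hd'
      rcases hd' with hd' | rfl
      · obtain ⟨m, h1, h2, h3⟩ := hd d hd'
        exact ⟨m, h1, by push_cast; omega, h3⟩
      · exact ⟨a + n, by omega, by push_cast; omega, rfl⟩

/-- The part of the conditions on an object which does not look at the weights. -/
def Shape (k : ℤ) (n : ℕ) (a b : ℝ) (J : ℕ) (w : V) (y : ℤ) {x z : V}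
    (p : grid.Walk x (w + pt k 0 y)) (q : grid.Walk (pt k 0 y) z) : Prop :=
  lev k x = -(n : ℤ) ∧ lev k z = (n : ℤ) ∧
  (∀ v ∈ p.support, -(n : ℤ) ≤ lev k v) ∧ (∀ v ∈ q.support, lev k v ≤ (n : ℤ)) ∧
  WalkIn {eH k w y}ᶜ p ∧ WalkIn {eH k w y}ᶜ q ∧
  (∀ H : Finset ℤ, (∀ h ∈ H, (∃ d ∈ p.darts, edgeOf d.toProd.1 d.toProd.2 = eH k w h) ∨
    ∃ d ∈ q.darts, edgeOf d.toProd.1 d.toProd.2 = eH k w h) → H.card ≤ J) ∧
  (a * n ≤ -((x.2 - y : ℤ) : ℝ) ∧ -((x.2 - y : ℤ) : ℝ) ≤ b * n) ∧
  (a * n ≤ ((z.2 - y : ℤ) : ℝ) ∧ ((z.2 - y : ℤ) : ℝ) ≤ b * n)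

/-- An object at height `y`: its route is optimal, and routes avoiding its entrance edge lose at
least `δ`. -/
def Obj (δ : ℝ) (k : ℤ) (n : ℕ) (a b : ℝ) (J : ℕ) (w : V) (y : ℤ) (t : Conf) : Prop :=
  ∃ (x z : V) (p : grid.Walk x (w + pt k 0 y)) (q : grid.Walk (pt k 0 y) z),
    Shape k n a b J w y p q ∧
    (∀ r : grid.Walk x z, WalkIn {eH k w y}ᶜ r →
      plen t p + t (eH k w y) + plen t q + δ ≤ plen t r) ∧
    ∀ r : grid.Walk x z, plen t p + t (eH k w y) + plen t q ≤ plen t r

theorem measurableSet_obj (δ : ℝ) (k : ℤ) (n : ℕ) (a b : ℝ) (J : ℕ) (w : V) (y : ℤ) :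
    MeasurableSet {t | Obj δ k n a b J w y t} := by
  simp only [Obj, Set.ofPred_exists]
  refine .iUnion fun x => .iUnion fun z => .iUnion fun p => .iUnion fun q => ?_
  by_cases h : Shape k n a b J w y p q
  · simp only [h, true_and, Set.ofPred_and, Set.ofPred_forall]
    exact (MeasurableSet.iInter fun r => .iInter fun _ => measurableSet_le
      (((Units.measurable_plen p).add (measurable_pi_apply _)).add
        (Units.measurable_plen q) |>.add_const δ) (Units.measurable_plen r)).inter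
      (.iInter fun r => measurableSet_le (((Units.measurable_plen p).add
        (measurable_pi_apply _)).add (Units.measurable_plen q)) (Units.measurable_plen r))
  · simp [h]

theorem edge_map_add {x z : V} (v : V) (p : grid.Walk x z) (e : Edge) :
    (∃ d ∈ (p.map (Units.transHom v)).darts, edgeOf d.toProd.1 d.toProd.2 = eShift v e) ↔
      ∃ d ∈ p.darts, edgeOf d.toProd.1 d.toProd.2 = e := by
  simp only [SimpleGraph.Walk.darts_map, List.mem_map]
  constructor
  · rintro ⟨d', ⟨d, hd, rfl⟩, he⟩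
    refine ⟨d, hd, eShift_inj v ?_⟩
    rw [← Units.edgeOf_add]
    exact he
  · rintro ⟨d, hd, rfl⟩
    exact ⟨_, ⟨d, hd, rfl⟩, Units.edgeOf_add _ _ v⟩

theorem plen_map_add (t : Conf) (v : V) {x z : V} (p : grid.Walk x z) :
    plen t (p.map (Units.transHom v)) = plen (shift v t) p := Units.plen_trans t v p

/-- Covariance of objects under translations along the level line. -/
theorem obj_shift {δ : ℝ} {k : ℤ} {n : ℕ} {a b : ℝ} {J : ℕ} {w : V} {y : ℤ} {t : Conf}
    (h : Obj δ k n a b J w 0 (shift (pt k 0 y) t)) : Obj δ k n a b J w y t := by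
  obtain ⟨x, z, p, q, ⟨h1, h2, h3, h4, h5, h6, h7, h8, h9⟩, hm, hb⟩ := h
  set v : V := pt k 0 y with hv
  have hz0 : pt k 0 (0 : ℤ) = 0 := by simp [pt]
  have eP : Units.transHom v (w + pt k 0 0) = w + pt k 0 y := by
    show w + pt k 0 0 + v = w + pt k 0 y
    rw [hz0, add_zero]
  have eQ : Units.transHom v (pt k 0 0) = pt k 0 y := by
    show pt k 0 0 + v = pt k 0 y
    rw [hz0, zero_add]
  have eX : Units.transHom v x = x + v := rfl
  have eZ : Units.transHom v z = z + v := rfl
  have heq : ∀ h : ℤ, eShift v (eH k w h) = eH k w (h + y) := fun h => eH_shift k w y h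
  have havoid : ∀ {x' z' : V} (r : grid.Walk x' z'), WalkIn {eH k w 0}ᶜ r →
      WalkIn {eH k w y}ᶜ (r.map (Units.transHom v)) := by
    intro x' z' r hr d hd he
    rw [Set.mem_singleton_iff] at he
    obtain ⟨d', hd', he'⟩ := (edge_map_add v r (eH k w 0)).1 ⟨d, hd, by rw [heq, zero_add]; exact he⟩
    exact hr d' hd' he'
  refine ⟨x + v, z + v, (p.map (Units.transHom v)).copy eX eP,
    (q.map (Units.transHom v)).copy eQ eZ, ⟨?_, ?_, ?_, ?_, ?_, ?_, ?_, ?_, ?_⟩, ?_, ?_⟩
  · rw [hv, lev_add_pt]; exact h1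
  · rw [hv, lev_add_pt]; exact h2
  · intro u hu
    rw [SimpleGraph.Walk.support_copy, SimpleGraph.Walk.support_map, List.mem_map] at hu
    obtain ⟨u', hu', rfl⟩ := hu
    exact (lev_add_pt k u' y).symm ▸ h3 u' hu'
  · intro u hu
    rw [SimpleGraph.Walk.support_copy, SimpleGraph.Walk.support_map, List.mem_map] at hu
    obtain ⟨u', hu', rfl⟩ := hu
    exact (lev_add_pt k u' y).symm ▸ h4 u' hu'
  · exact (havoid p h5).copy _ _
  · exact (havoid q h6).copy _ _
  · intro H hH
    refine le_of_eq_of_le (Finset.card_image_of_injective H (sub_left_injective (b := y))).symm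
      (h7 (H.image fun h => h - y) fun h' hh' => ?_)
    obtain ⟨h, hh, rfl⟩ := Finset.mem_image.1 hh'
    have e : eH k w h = eShift v (eH k w (h - y)) := by rw [heq, sub_add_cancel]
    have := hH h hh
    rw [SimpleGraph.Walk.darts_copy, SimpleGraph.Walk.darts_copy, e, edge_map_add,
      edge_map_add] at this
    exact this
  · simpa [hv, pt] using h8
  · simpa [hv, pt] using h9
  · intro r hr
    have hback : ∀ u : V, Units.transHom (-v) (u + v) = u := fun u => add_neg_cancel_right u v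
    set r' : grid.Walk x z := (r.map (Units.transHom (-v))).copy (hback x) (hback z) with hr'
    have hr'in : WalkIn {eH k w 0}ᶜ r' := by
      intro d hd he
      rw [hr', SimpleGraph.Walk.darts_copy] at hd
      rw [Set.mem_singleton_iff] at he
      have e : eH k w 0 = eShift (-v) (eH k w y) := by
        apply eShift_inj v
        rw [heq, zero_add]
        simp [eShift]
      obtain ⟨d', hd', he'⟩ := (edge_map_add (-v) r _).1 ⟨d, hd, he.trans e⟩
      exact hr d' hd' he'
    have hm' := hm r' hr'in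
    have hlen : plen (shift v t) r' = plen t r := by
      rw [hr', plen_copy, plen_map_add]
      refine congrArg (fun s => plen s r) (funext fun e => ?_)
      simp [shift, eShift]
    have he0 : shift v t (eH k w 0) = t (eH k w y) := by
      rw [shift, heq, zero_add]
    rw [plen_copy, plen_copy, plen_map_add, plen_map_add, ← hlen, ← he0]
    exact hm'
  · intro r
    have hback : ∀ u : V, Units.transHom (-v) (u + v) = u := fun u => add_neg_cancel_right u v
    have hb' := hb ((r.map (Units.transHom (-v))).copy (hback x) (hback z))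
    have hlen : plen (shift v t) ((r.map (Units.transHom (-v))).copy (hback x) (hback z)) =
        plen t r := by
      rw [plen_copy, plen_map_add]
      refine congrArg (fun s => plen s r) (funext fun e => ?_)
      simp [shift, eShift]
    have he0 : shift v t (eH k w 0) = t (eH k w y) := by
      rw [shift, heq, zero_add]
    rw [plen_copy, plen_copy, plen_map_add, plen_map_add, ← hlen, ← he0]
    exact hb'

theorem plen_update_avoid (t : Conf) (e : Edge) (x : ℝ) {u v : V} (p : grid.Walk u v)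
    (hp : WalkIn {e}ᶜ p) : plen (Function.update t e x) p = plen t p :=
  Units.plen_update_of_avoid t e x p fun d hd => hp d hd

/-- A site gives an object once its entrance edge is lowered. -/
theorem lower_mem {k : ℤ} (hk : k = 0 ∨ k = 1) {R : ℕ} {r₀ r₁ C a b : ℝ} (hr : r₀ ≤ r₁) {n : ℕ}
    {t : Conf} (h0 : ∀ e, 0 ≤ t e) (ht : t ∈ slopeSite k R r₁ C n a b) :
    ∃ w ∈ preds k, ∀ x ∈ Set.Icc 0 r₀,
      Obj (r₁ - r₀) k n a b (R + 2) w 0 (Function.update t (eH k w 0) x) := by
  obtain ⟨γ, i₀, i₁, i, j, hs, hsl1, hsl2, hsl3, hsl4⟩ := ht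
  have hcr := hs.cross
  have hlo := hcr.lo
  have hle := hcr.le
  have hhi := hcr.hi
  have hlen := hcr.len
  have hadj := hs.seg.adj
  set w := γ (i - 1) with hwdef
  have hwadj : Adj w 0 := by
    have h := hadj (i - 1) (by omega) (by omega)
    rwa [sub_add_cancel, hs.origin] at h
  have hwlev : lev k w = -1 := by
    have h1 : lev k w < 0 := hcr.before (i - 1) (by omega) (by omega)
    have h2 := (lev_step hk hwadj).1
    have h3 : lev k (0 : V) = 0 := by simp [lev]
    omega
  have hwmem : w ∈ preds k := by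
    refine Finset.mem_filter.2 ⟨?_, hwlev⟩
    rw [adj_iff] at hwadj
    simp only [Prod.fst_zero, Prod.snd_zero] at hwadj
    simp only [Finset.mem_insert, Finset.mem_singleton, Prod.ext_iff]
    simp only [lev] at hwlev
    rcases hk with rfl | rfl <;> omega
  refine ⟨w, hwmem, fun x hx => ?_⟩
  obtain ⟨hx0, hx⟩ := hx
  have hz0 : pt k 0 (0 : ℤ) = 0 := by simp [pt]
  have heE : eH k w 0 = edgeOf (γ (i - 1)) (γ i) := by
    rw [eH, hz0, add_zero, hs.origin]
  have hother : ∀ m, i₀ ≤ m → m < i₁ → m ≠ i - 1 →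
      edgeOf (γ m) (γ (m + 1)) ≠ eH k w 0 := by
    intro m h1 h2 hne he
    rw [heE] at he
    have hA := hadj (i - 1) (by omega) (by omega)
    rw [sub_add_cancel] at hA
    rcases (edgeOf_eq_iff (hadj m h1 h2) hA).1 he with ⟨e1, -⟩ | ⟨e1, e2⟩
    · exact hne (hs.seg.inj ⟨h1, h2.le⟩ ⟨by omega, by omega⟩ e1)
    · have := hs.seg.inj ⟨h1, h2.le⟩ ⟨by omega, by omega⟩ e1
      have := hs.seg.inj ⟨by omega, by omega⟩ ⟨by omega, by omega⟩ e2
      omega
  obtain ⟨N1, hN1⟩ : ∃ N1 : ℕ, i - 1 = i₀ + N1 := ⟨(i - 1 - i₀).toNat, by omega⟩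
  obtain ⟨N2, hN2⟩ : ∃ N2 : ℕ, i₁ = i + N2 := ⟨(i₁ - i).toNat, by omega⟩
  obtain ⟨p, hp1, hp2, hp3⟩ := seg_walk (t := t) (γ := γ) i₀ N1
    fun m h1 h2 => hadj m h1 (by omega)
  obtain ⟨q, hq1, hq2, hq3⟩ := seg_walk (t := t) (γ := γ) i N2
    fun m h1 h2 => hadj m (by omega) (by omega)
  have eP : γ (i₀ + N1) = w + pt k 0 0 := by rw [hz0, add_zero, ← hN1]
  have eQ : γ i = pt k 0 0 := by rw [hz0, hs.origin]
  have eZ : γ (i + N2) = γ i₁ := by rw [← hN2]
  have hpav : WalkIn {eH k w 0}ᶜ p := fun d hd => by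
    obtain ⟨m, h1, h2, h3⟩ := hp3 d hd
    rw [Set.mem_compl_iff, Set.mem_singleton_iff, h3]
    exact hother m h1 (by omega) (by omega)
  have hqav : WalkIn {eH k w 0}ᶜ q := fun d hd => by
    obtain ⟨m, h1, h2, h3⟩ := hq3 d hd
    rw [Set.mem_compl_iff, Set.mem_singleton_iff, h3]
    exact hother m (by omega) (by omega) (by omega)
  refine ⟨γ i₀, γ i₁, p.copy rfl eP, q.copy eQ eZ,
    ⟨hs.lev₀, hs.lev₁, ?_, ?_, hpav.copy _ _, hqav.copy _ _, ?_, ?_, ?_⟩, ?_, ?_⟩
  · intro v hv
    rw [SimpleGraph.Walk.support_copy] at hv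
    obtain ⟨m, h1, h2, rfl⟩ := hp2 v hv
    exact (hs.strip m h1 (by omega)).1
  · intro v hv
    rw [SimpleGraph.Walk.support_copy] at hv
    obtain ⟨m, h1, h2, rfl⟩ := hq2 v hv
    exact (hs.strip m (by omega) (by omega)).2
  · intro H hH
    rw [SimpleGraph.Walk.darts_copy, SimpleGraph.Walk.darts_copy] at hH
    have hidx : ∀ h ∈ H, ∃ m, i₀ ≤ m ∧ m < i₁ ∧ edgeOf (γ m) (γ (m + 1)) = eH k w h := by
      intro h hh
      rcases hH h hh with ⟨d, hd, he⟩ | ⟨d, hd, he⟩
      · obtain ⟨m, h1, h2, h3⟩ := hp3 d hd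
        exact ⟨m, h1, by omega, h3.symm.trans he⟩
      · obtain ⟨m, h1, h2, h3⟩ := hq3 d hd
        exact ⟨m, by omega, by omega, h3.symm.trans he⟩
    choose! f hf using hidx
    refine le_trans (Finset.card_le_card_of_injOn f (t := Finset.Icc (i - 1) j) (fun h hh => ?_)
      (fun h hh h' hh' he => eH_inj (k := k) (w := w) ?_)) ?_
    · obtain ⟨h1, h2, h3⟩ := hf h hh
      have hA : Adj (w + pt k 0 h) (pt k 0 h) := eH_adj hwadj h
      have hl1 : lev k (w + pt k 0 h) = -1 := by rw [lev_add_pt, hwlev]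
      have hl2 : lev k (pt k 0 h) = 0 := by simp [lev, pt]
      rw [Finset.mem_coe, Finset.mem_Icc]
      rcases (edgeOf_eq_iff (hadj (f h) h1 h2) hA).1 h3 with ⟨e1, e2⟩ | ⟨e1, e2⟩ <;>
      · constructor
        · by_contra hlt
          have := hcr.before (f h) h1 (by omega)
          have := hcr.before (f h + 1) (by omega) (by omega)
          rw [e1] at *; rw [e2] at *
          omega
        · by_contra hgt
          have := hcr.after (f h) (by omega) h2.le
          have := hcr.after (f h + 1) (by omega) (by omega)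
          rw [e1] at *; rw [e2] at *
          omega
    · exact ((hf h hh).2.2).symm.trans (by rw [he]; exact (hf h' hh').2.2)
    · rw [Int.card_Icc]; omega
  · simpa using ⟨hsl1, hsl2⟩
  · simpa using ⟨hsl3, hsl4⟩
  all_goals
    have hsum : ∑ m ∈ Finset.Ico i₀ i₁, wt t (γ m) (γ (m + 1)) =
        plen t p + wt t (γ (i - 1)) (γ i) + plen t q := by
      rw [hp1, hq1, ← hN2, ← hN1,
        ← Finset.Ico_union_Ico_eq_Ico (show i₀ ≤ i - 1 by omega) (show i - 1 ≤ i₁ by omega),
        Finset.sum_union (Finset.Ico_disjoint_Ico_consecutive _ _ _),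
        ← Finset.Ico_union_Ico_eq_Ico (show i - 1 ≤ i by omega) (show i ≤ i₁ by omega),
        Finset.sum_union (Finset.Ico_disjoint_Ico_consecutive _ _ _)]
      have e : Finset.Ico (i - 1) i = {i - 1} := by
        have := Units.Ico_one (i - 1); rwa [sub_add_cancel] at this
      rw [e, Finset.sum_singleton, sub_add_cancel]
      ring
    have hheavy := hs.heavy
    have hte : t (eH k w 0) = wt t (γ (i - 1)) (γ i) := by rw [heE]; rfl
    rw [plen_copy, plen_copy, plen_update_avoid t _ x p hpav, plen_update_avoid t _ x q hqav,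
      Function.update_self]
  · intro r hr
    rw [plen_update_avoid t _ x r hr]
    have hT : T t (γ i₀) (γ i₁) ≤ plen t r := T_le h0 r
    rw [← hs.seg.geo] at hT
    linarith
  · intro r
    have hup0 : ∀ e, 0 ≤ Function.update t (eH k w 0) x e := fun e => by
      rcases eq_or_ne e (eH k w 0) with rfl | he
      · rwa [Function.update_self]
      · rw [Function.update_of_ne he]; exact h0 e
    have hpe := Units.plen_update_path t (eH k w 0) (x := x) (by linarith) r.bypass r.bypass_isPath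
    have hle := plen_bypass_le hup0 r
    have hT : T t (γ i₀) (γ i₁) ≤ plen t r.bypass := T_le h0 r.bypass
    rw [← hs.seg.geo] at hT
    linarith

end Vale.Agent.P158.SlopeAux
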