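import Vale.Agent.P158.Slope.Event

/-!
Slope bound, count: in one configuration the objects of separated slope units on a stretch of the
level line number at most linearly in its length.
-/

open MeasureTheory Filter Topology

namespace Vale.Agent.P158.SlopeAux

variable {m : ℕ}

/-- Selection of objects avoiding the keys of each other. -/
theorem exists_select (O : Finset (ℕ × Fin m)) (F : ℕ × Fin m → Finset ℕ) {J : ℕ}
    (hF : ∀ o ∈ O, (F o).card ≤ J) (hself : ∀ o ∈ O, o.1 ∉ F o) :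
    ∃ K ⊆ O, (O.card : ℝ) ≤ 4 * ((J : ℝ) + 1) * K.card ∧
      ∀ o ∈ K, ∀ q ∈ K, q.1 ∉ F o := by
  classical
  set Z := O.image Prod.fst
  set A : ℕ → ℕ → ℝ := fun y y' => ((O.filter fun o => o.1 = y ∧ y' ∈ F o).card : ℝ) with hA
  set p : ℝ := 1 / (2 * ((J : ℝ) + 1)) with hp
  have hJ : (0 : ℝ) ≤ J := Nat.cast_nonneg J
  have hp0 : 0 < p := by positivity
  obtain ⟨Z', -, hbd⟩ := Units.exists_subset_quad Z A (fun y => by
      simp only [hA, Nat.cast_eq_zero, Finset.card_eq_zero, Finset.filter_eq_empty_iff]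
      rintro o ho ⟨h1, h2⟩
      exact hself o ho (h1 ▸ h2))
    hp0.le (by rw [hp, div_le_one (by positivity)]; linarith)
    fun y => ((O.filter fun o => o.1 = y).card : ℝ)
  have hw : ∀ X : Finset ℕ, ∑ y ∈ X, ((O.filter fun o => o.1 = y).card : ℝ) =
      ∑ o ∈ O, if o.1 ∈ X then (1 : ℝ) else 0 := fun X => by
    simp only [← Finset.sum_boole]
    rw [Finset.sum_comm]
    exact Finset.sum_congr rfl fun o _ => by simp
  have hAX : ∀ X : Finset ℕ, ∑ y ∈ X, ∑ y' ∈ X, A y y' =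
      ∑ o ∈ O, if o.1 ∈ X then ((X.filter fun y => y ∈ F o).card : ℝ) else 0 := fun X => by
    simp only [hA, ← Finset.sum_boole]
    rw [Finset.sum_congr rfl fun y _ => Finset.sum_comm, Finset.sum_comm]
    refine Finset.sum_congr rfl fun o _ => ?_
    by_cases h : o.1 ∈ X
    · rw [if_pos h, Finset.sum_eq_single_of_mem o.1 h (fun y _ hy =>
        Finset.sum_eq_zero fun y' _ => by rw [if_neg]; rintro ⟨hc, -⟩; exact hy hc.symm)]
      exact Finset.sum_congr rfl fun y' _ => by simp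
    · rw [if_neg h]
      exact Finset.sum_eq_zero fun y hy => Finset.sum_eq_zero fun y' _ => by
        rw [if_neg]; rintro ⟨hc, -⟩; exact h (hc ▸ hy)
  rw [hw, hw, hAX, hAX] at hbd
  set K := O.filter fun o => o.1 ∈ Z' ∧ ∀ y ∈ Z', y ∉ F o with hK
  have h1 : (∑ o ∈ O, if o.1 ∈ Z then (1 : ℝ) else 0) = O.card := by
    rw [Finset.card_eq_sum_ones, Nat.cast_sum]
    exact Finset.sum_congr rfl fun o ho => by
      rw [if_pos (show o.1 ∈ Z from Finset.mem_image_of_mem _ ho), Nat.cast_one]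
  have h2 : (∑ o ∈ O, if o.1 ∈ Z then ((Z.filter fun y => y ∈ F o).card : ℝ) else 0) ≤
      (J : ℝ) * O.card := by
    rw [mul_comm, ← nsmul_eq_mul, ← Finset.sum_const]
    refine Finset.sum_le_sum fun o ho => ?_
    split_ifs with h
    · exact_mod_cast (Finset.card_le_card (fun y hy => (Finset.mem_filter.1 hy).2)).trans (hF o ho)
    · exact hJ
  have h3 : (∑ o ∈ O, if o.1 ∈ Z' then (1 : ℝ) else 0) -
      (∑ o ∈ O, if o.1 ∈ Z' then ((Z'.filter fun y => y ∈ F o).card : ℝ) else 0) ≤ K.card := by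
    rw [← Finset.sum_sub_distrib, hK, ← Finset.sum_boole]
    refine Finset.sum_le_sum fun o _ => ?_
    by_cases h : o.1 ∈ Z'
    · by_cases hc : ∀ y ∈ Z', y ∉ F o
      · rw [if_pos h, if_pos h, if_pos (And.intro h hc)]
        simp
      · simp only [h, hc, if_true, and_false, if_false]
        push Not at hc
        obtain ⟨y, hy, hy'⟩ := hc
        have : (1 : ℝ) ≤ (Z'.filter fun y => y ∈ F o).card := by
          exact_mod_cast Finset.card_pos.2 ⟨y, Finset.mem_filter.2 ⟨hy, hy'⟩⟩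
        linarith
    · simp [h]
  refine ⟨K, Finset.filter_subset _ _, ?_, fun o ho q hq =>
    (Finset.mem_filter.1 ho).2.2 q.1 (Finset.mem_filter.1 hq).2.1⟩
  have hO0 : (0 : ℝ) ≤ O.card := Nat.cast_nonneg _
  rw [h1] at hbd
  have h4 := mul_le_mul_of_nonneg_left h2 (sq_nonneg p)
  have h5 : p * (J : ℝ) ≤ 1 / 2 := by
    rw [hp, div_mul_eq_mul_div, div_le_iff₀ (by positivity)]
    linarith
  have h6 : p * O.card / 2 ≤ K.card := by
    nlinarith [mul_le_mul_of_nonneg_right h5 (mul_nonneg hp0.le hO0)]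
  have h7 : p * (2 * ((J : ℝ) + 1)) = 1 := by rw [hp]; field_simp
  nlinarith [mul_le_mul_of_nonneg_left h6 (show (0 : ℝ) ≤ 4 * ((J : ℝ) + 1) by positivity)]

/-- Consecutive pairs of objects of the same unit. -/
theorem exists_pairs (K : Finset (ℕ × Fin m)) :
    ∃ P : Finset ((ℕ × Fin m) × (ℕ × Fin m)),
      (∀ p ∈ P, p.1 ∈ K ∧ p.2 ∈ K ∧ p.1.2 = p.2.2 ∧ p.1.1 < p.2.1) ∧
      (∀ u : ℕ, ∀ p ∈ P, ∀ q ∈ P, p.1.1 ≤ u → u < p.2.1 → q.1.1 ≤ u → u < q.2.1 →
        p.1.2 = q.1.2 → p = q) ∧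
      K.card ≤ P.card + m := by
  classical
  set P := (K ×ˢ K).filter fun p => p.1.2 = p.2.2 ∧ p.1.1 < p.2.1 ∧
    ∀ q ∈ K, q.2 = p.1.2 → ¬(p.1.1 < q.1 ∧ q.1 < p.2.1) with hPdef
  refine ⟨P, fun p hp => ?_, ?_, ?_⟩
  · simp only [hPdef, Finset.mem_filter, Finset.mem_product] at hp
    exact ⟨hp.1.1, hp.1.2, hp.2.1, hp.2.2.1⟩
  · intro u p hp q hq h1 h2 h3 h4 h5
    simp only [hPdef, Finset.mem_filter, Finset.mem_product] at hp hq
    obtain ⟨⟨p1, p2⟩, p3, p4, p5⟩ := hp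
    obtain ⟨⟨q1, q2⟩, q3, q4, q5⟩ := hq
    have e1 := p5 q.1 q1 h5.symm
    have e2 := q5 p.1 p1 h5
    have e3 := p5 q.2 q2 (q3.symm.trans h5.symm)
    have e4 := q5 p.2 p2 (p3.symm.trans h5)
    refine Prod.ext (Prod.ext ?_ h5) (Prod.ext ?_ (p3.symm.trans (h5.trans q3))) <;> omega
  · set L := K.filter fun o => ∃ q ∈ K, q.2 = o.2 ∧ o.1 < q.1 with hL
    have h1 : L.card ≤ P.card := by
      refine le_trans (Finset.card_le_card ?_) (Finset.card_image_le (f := Prod.fst))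
      intro o ho
      obtain ⟨hoK, q, hq, hq2, hq1⟩ := Finset.mem_filter.1 ho
      obtain ⟨q', hq', hmin⟩ := Finset.exists_min_image (K.filter fun q => q.2 = o.2 ∧ o.1 < q.1)
        (fun q => q.1) ⟨q, Finset.mem_filter.2 ⟨hq, hq2, hq1⟩⟩
      obtain ⟨hq'K, hq'2, hq'1⟩ := Finset.mem_filter.1 hq'
      refine Finset.mem_image.2 ⟨(o, q'), Finset.mem_filter.2 ⟨Finset.mem_product.2 ⟨hoK, hq'K⟩,
        hq'2.symm, hq'1, fun z hz hz2 hlt => ?_⟩, rfl⟩
      dsimp only at hlt hz2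
      have := hmin z (Finset.mem_filter.2 ⟨hz, hz2, hlt.1⟩)
      omega
    have h2 : (K \ L).card ≤ m := by
      refine le_trans (Finset.card_le_card_of_injOn (fun o => o.2) (fun o _ => Finset.mem_univ o.2)
        ?_) (le_of_eq (Finset.card_fin m))
      intro o ho q hq (hoq : o.2 = q.2)
      simp only [Finset.mem_coe, Finset.mem_sdiff, hL, Finset.mem_filter, not_and, not_exists]
        at ho hq
      refine Prod.ext ?_ hoq
      have := ho.2 ho.1 q hq.1 hoq.symm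
      have := hq.2 hq.1 o ho.1 hoq
      omega
    have h3 : (K \ L).card + L.card = K.card :=
      Finset.card_sdiff_add_card_eq_card (Finset.filter_subset _ K)
    omega

/-- Sources with crossing walks: three units cannot straddle one level of increments. -/
theorem no_three {t : Conf} {S : Set Edge} (h0 : ∀ e, 0 ≤ t e) {ι : Type*} (src : ι → V)
    (key : ι → ℤ)
    (hmeet : ∀ o₁ o₂ o₃ o₄, key o₁ ≤ key o₂ → key o₂ ≤ key o₃ → key o₃ ≤ key o₄ →
      ∀ (P : grid.Walk (src o₁) (src o₃)) (Q : grid.Walk (src o₂) (src o₄)),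
        WalkIn S P → WalkIn S Q → ∃ z, z ∈ P.support ∧ z ∈ Q.support)
    (L H : Fin 3 → ι) {u w : V}
    (hconn : ∀ i, ∀ z, z = u ∨ z = w → ConnIn S (src (L i)) z ∧ ConnIn S (src (H i)) z)
    (hord : ∀ i j : Fin 3, i < j → ∀ o q, (o = L i ∨ o = H i) → (q = L j ∨ q = H j) → key o ≤ key q)
    (hgap : ∀ i j, TS t S (src (L i)) w - TS t S (src (L i)) u <
      TS t S (src (H j)) w - TS t S (src (H j)) u) : False := by
  classical
  obtain ⟨p₀, -, hp₀⟩ := Finset.exists_min_image (Finset.univ : Finset (Fin 3 × Fin 3))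
    (fun p => (TS t S (src (H p.2)) w - TS t S (src (H p.2)) u) -
      (TS t S (src (L p.1)) w - TS t S (src (L p.1)) u)) Finset.univ_nonempty
  set ε := ((TS t S (src (H p₀.2)) w - TS t S (src (H p₀.2)) u) -
    (TS t S (src (L p₀.1)) w - TS t S (src (L p₀.1)) u)) / 3 with hεdef
  have hε : 0 < ε := by have := hgap p₀.1 p₀.2; rw [hεdef]; linarith
  have hεle : ∀ i j, 3 * ε ≤ (TS t S (src (H j)) w - TS t S (src (H j)) u) -
      (TS t S (src (L i)) w - TS t S (src (L i)) u) := fun i j => by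
    have := hp₀ (i, j) (Finset.mem_univ _)
    rw [hεdef]; linarith
  have happ : ∀ {x z : V}, ConnIn S x z →
      ∃ p : grid.Walk x z, WalkIn S p ∧ plen t p < TS t S x z + ε := by
    intro x z hc
    obtain ⟨p, hp⟩ := hc
    obtain ⟨_, ⟨q, hq, rfl⟩, hlt⟩ := exists_lt_of_csInf_lt
      (s := plen t '' {p : grid.Walk x z | WalkIn S p}) ⟨_, p, hp, rfl⟩
      (show TS t S x z < TS t S x z + ε by linarith)
    exact ⟨q, hq, hlt⟩
  choose UL hUL hULlt using fun i => happ (hconn i w (Or.inr rfl)).1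
  choose UH hUH hUHlt using fun i => happ (hconn i u (Or.inl rfl)).2
  have hbad : ∀ i j z, z ∈ (UL i).support → z ∈ (UH j).support → False := by
    intro i j z hzl hzh
    obtain ⟨P₁, P₂, hP₁, hP₂, hPe⟩ := Units.seg_split (t := t) (UL i) (hUL i) hzl
    obtain ⟨Q₁, Q₂, hQ₁, hQ₂, hQe⟩ := Units.seg_split (t := t) (UH j) (hUH j) hzh
    have hA := TS_le h0 ((walkIn_append_iff P₁ Q₂).2 ⟨hP₁, hQ₂⟩)
    have hB := TS_le h0 ((walkIn_append_iff Q₁ P₂).2 ⟨hQ₁, hP₂⟩)
    rw [plen_append] at hA hB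
    have := hεle i j
    have := hULlt i
    have := hUHlt j
    linarith
  rcases le_total (key (H 0)) (key (L 0)) with hc | hc
  · obtain ⟨z, hzP, hzQ⟩ := hmeet (H 0) (L 0) (H 1) (L 2) hc
      (hord 0 1 (by decide) _ _ (Or.inl rfl) (Or.inr rfl))
      (hord 1 2 (by decide) _ _ (Or.inr rfl) (Or.inl rfl))
      ((UH 0).append (UH 1).reverse) ((UL 0).append (UL 2).reverse)
      ((walkIn_append_iff _ _).2 ⟨hUH 0, (hUH 1).reverse⟩)
      ((walkIn_append_iff _ _).2 ⟨hUL 0, (hUL 2).reverse⟩)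
    simp only [SimpleGraph.Walk.mem_support_append_iff, SimpleGraph.Walk.support_reverse,
      List.mem_reverse] at hzP hzQ
    rcases hzP with h1 | h1 <;> rcases hzQ with h2 | h2 <;> exact hbad _ _ z h2 h1
  · obtain ⟨z, hzP, hzQ⟩ := hmeet (L 0) (H 0) (L 1) (H 2) hc
      (hord 0 1 (by decide) _ _ (Or.inr rfl) (Or.inl rfl))
      (hord 1 2 (by decide) _ _ (Or.inl rfl) (Or.inr rfl))
      ((UL 0).append (UL 1).reverse) ((UH 0).append (UH 2).reverse)
      ((walkIn_append_iff _ _).2 ⟨hUL 0, (hUL 1).reverse⟩)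
      ((walkIn_append_iff _ _).2 ⟨hUH 0, (hUH 2).reverse⟩)
    simp only [SimpleGraph.Walk.mem_support_append_iff, SimpleGraph.Walk.support_reverse,
      List.mem_reverse] at hzP hzQ
    rcases hzP with h1 | h1 <;> rcases hzQ with h2 | h2 <;> exact hbad _ _ z h1 h2

/-- One side: increments over consecutive pairs of the differences of distances from sources. -/
theorem side_sum_le {t : Conf} (h0 : ∀ e, 0 ≤ t e) {S : Set Edge} {Y : ℕ} (c : ℕ → ℝ)
    (src : ℕ × Fin m → V) (key : ℕ × Fin m → ℤ) (tgt : ℕ → V)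
    (hmeet : ∀ o₁ o₂ o₃ o₄, key o₁ ≤ key o₂ → key o₂ ≤ key o₃ → key o₃ ≤ key o₄ →
      ∀ (P : grid.Walk (src o₁) (src o₃)) (Q : grid.Walk (src o₂) (src o₄)),
        WalkIn S P → WalkIn S Q → ∃ z, z ∈ P.support ∧ z ∈ Q.support)
    (hstep : ∀ u, ∃ p : grid.Walk (tgt u) (tgt (u + 1)), WalkIn S p ∧ plen t p ≤ c u)
    (K : Finset (ℕ × Fin m)) (hconn : ∀ o ∈ K, ∀ u, ConnIn S (src o) (tgt u))
    (hkey : ∀ o ∈ K, ∀ q ∈ K, o.2 < q.2 → key o ≤ key q)
    (P : Finset ((ℕ × Fin m) × (ℕ × Fin m)))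
    (hP : ∀ p ∈ P, p.1 ∈ K ∧ p.2 ∈ K ∧ p.1.2 = p.2.2 ∧ p.1.1 < p.2.1 ∧ p.2.1 < Y)
    (huniq : ∀ u : ℕ, ∀ p ∈ P, ∀ q ∈ P, p.1.1 ≤ u → u < p.2.1 → q.1.1 ≤ u → u < q.2.1 →
      p.1.2 = q.1.2 → p = q) :
    ∑ p ∈ P, |(TS t S (src p.1) (tgt p.2.1) - TS t S (src p.2) (tgt p.2.1)) -
      (TS t S (src p.1) (tgt p.1.1) - TS t S (src p.2) (tgt p.1.1))| ≤
      4 * ∑ u ∈ Finset.range Y, c u := by
  classical
  have hc0 : ∀ u, 0 ≤ c u := fun u => by
    obtain ⟨p, -, hlen⟩ := hstep u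
    exact (plen_nonneg h0 p).trans hlen
  set D : ℕ × Fin m → ℕ → ℝ := fun o u =>
    TS t S (src o) (tgt (u + 1)) - TS t S (src o) (tgt u) with hD
  have hDb : ∀ o ∈ K, ∀ u, |D o u| ≤ c u := by
    intro o ho u
    obtain ⟨p, hp, hlen⟩ := hstep u
    rw [abs_sub_comm]
    exact (TS_lip h0 (hconn o ho u) ⟨p, hp⟩).trans ((TS_le h0 hp).trans hlen)
  have hedge : ∀ u : ℕ, ∑ p ∈ P.filter (fun p => p.1.1 ≤ u ∧ u < p.2.1), |D p.1 u - D p.2 u| ≤
      4 * c u := by
    intro u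
    set Q := P.filter (fun p => p.1.1 ≤ u ∧ u < p.2.1)
    have hmem : ∀ p ∈ Q, p.1 ∈ K ∧ p.2 ∈ K := fun p hp =>
      ⟨(hP p (Finset.mem_filter.1 hp).1).1, (hP p (Finset.mem_filter.1 hp).1).2.1⟩
    simp only [← max_sub_min_eq_abs']
    refine Units.sum_length_le Q _ _ (hc0 u) (fun p hp => le_min ?_ ?_)
      (fun p hp => max_le ?_ ?_) (fun p _ => min_le_max) fun s => ?_
    · exact (abs_le.1 (hDb _ (hmem p hp).1 u)).1
    · exact (abs_le.1 (hDb _ (hmem p hp).2 u)).1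
    · exact (abs_le.1 (hDb _ (hmem p hp).1 u)).2
    · exact (abs_le.1 (hDb _ (hmem p hp).2 u)).2
    by_contra hcard
    set Qs := Q.filter fun p => min (D p.1 u) (D p.2 u) < s ∧ s < max (D p.1 u) (D p.2 u)
    have hinj : Set.InjOn (fun p : (ℕ × Fin m) × (ℕ × Fin m) => p.1.2) Qs := by
      intro p hp q hq he
      obtain ⟨hp1, hp2, hp3⟩ := Finset.mem_filter.1 (Finset.mem_filter.1 hp).1
      obtain ⟨hq1, hq2, hq3⟩ := Finset.mem_filter.1 (Finset.mem_filter.1 hq).1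
      exact huniq u p hp1 q hq1 hp2 hp3 hq2 hq3 he
    have h3 : 3 ≤ (Qs.image fun p => p.1.2).card := by
      rw [Finset.card_image_of_injOn hinj]; omega
    obtain ⟨U, hU, hUc⟩ := Finset.exists_subset_card_eq h3
    set emb := U.orderEmbOfFin hUc
    have hpick : ∀ i : Fin 3, ∃ p ∈ Qs, p.1.2 = emb i := fun i =>
      Finset.mem_image.1 (hU (Finset.orderEmbOfFin_mem U hUc i))
    choose p hpQ hpe using hpick
    set lo : Fin 3 → ℕ × Fin m := fun i =>
      if D (p i).1 u ≤ D (p i).2 u then (p i).1 else (p i).2 with hlo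
    set hi : Fin 3 → ℕ × Fin m := fun i =>
      if D (p i).1 u ≤ D (p i).2 u then (p i).2 else (p i).1 with hhi
    have hin : ∀ i, lo i ∈ K ∧ hi i ∈ K ∧ (lo i).2 = emb i ∧ (hi i).2 = emb i ∧
        D (lo i) u < s ∧ s < D (hi i) u := by
      intro i
      have hs := (Finset.mem_filter.1 (hpQ i)).2
      obtain ⟨k1, k2, k3, -⟩ := hP _ (Finset.mem_filter.1 (Finset.mem_filter.1 (hpQ i)).1).1
      simp only [hlo, hhi]
      split_ifs with hc
      · rw [min_eq_left hc, max_eq_right hc] at hs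
        exact ⟨k1, k2, hpe i, k3 ▸ hpe i, hs⟩
      · rw [min_eq_right (le_of_not_ge hc), max_eq_left (le_of_not_ge hc)] at hs
        exact ⟨k2, k1, k3 ▸ hpe i, hpe i, hs⟩
    refine no_three h0 src key hmeet lo hi (u := tgt u) (w := tgt (u + 1)) (fun i z hz => ?_)
      (fun i j hij o q ho hq => ?_) fun i j => ?_
    · rcases hz with rfl | rfl <;> exact ⟨hconn _ (hin i).1 _, hconn _ (hin i).2.1 _⟩
    · have ho' : o ∈ K ∧ o.2 = emb i := by
        rcases ho with rfl | rfl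
        · exact ⟨(hin i).1, (hin i).2.2.1⟩
        · exact ⟨(hin i).2.1, (hin i).2.2.2.1⟩
      have hq' : q ∈ K ∧ q.2 = emb j := by
        rcases hq with rfl | rfl
        · exact ⟨(hin j).1, (hin j).2.2.1⟩
        · exact ⟨(hin j).2.1, (hin j).2.2.2.1⟩
      exact hkey o ho'.1 q hq'.1 (by rw [ho'.2, hq'.2]; exact emb.strictMono hij)
    · have := (hin i).2.2.2.2.1
      have := (hin j).2.2.2.2.2
      simp only [hD] at *
      linarith
  calc ∑ p ∈ P, |(TS t S (src p.1) (tgt p.2.1) - TS t S (src p.2) (tgt p.2.1)) -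
      (TS t S (src p.1) (tgt p.1.1) - TS t S (src p.2) (tgt p.1.1))|
      ≤ ∑ p ∈ P, ∑ u ∈ Finset.range Y,
          if p.1.1 ≤ u ∧ u < p.2.1 then |D p.1 u - D p.2 u| else 0 := by
        refine Finset.sum_le_sum fun p hp => ?_
        obtain ⟨-, -, -, hlt, hY⟩ := hP p hp
        have hset : (Finset.range Y).filter (fun u => p.1.1 ≤ u ∧ u < p.2.1) =
            Finset.Ico p.1.1 p.2.1 := by
          ext u; simp only [Finset.mem_filter, Finset.mem_range, Finset.mem_Ico]; omega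
        rw [← Finset.sum_filter, hset]
        set f : ℕ → ℝ := fun u => TS t S (src p.1) (tgt u) - TS t S (src p.2) (tgt u) with hf
        show |f p.2.1 - f p.1.1| ≤ _
        rw [← Finset.sum_Ico_sub f hlt.le]
        refine (Finset.abs_sum_le_sum_abs _ _).trans (le_of_eq (Finset.sum_congr rfl fun u _ => ?_))
        simp only [hD, hf]
        congr 1
        ring
    _ = ∑ u ∈ Finset.range Y, ∑ p ∈ P.filter (fun p => p.1.1 ≤ u ∧ u < p.2.1),
          |D p.1 u - D p.2 u| := by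
        rw [Finset.sum_comm]
        exact Finset.sum_congr rfl fun u _ => (Finset.sum_filter _ _).symm
    _ ≤ ∑ u ∈ Finset.range Y, 4 * c u := Finset.sum_le_sum fun u _ => hedge u
    _ = 4 * ∑ u ∈ Finset.range Y, c u := (Finset.mul_sum _ _ _).symm

/-- The middle of the two steps between neighbouring vertices of a level line of frame `1`. -/
def midV (v : V) (d : ℤ) : V := if d = -1 then (v.1 - 1, v.2) else (v.1, v.2 + 1)

/-- The edges of the steps between neighbouring vertices of a level line. -/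
def stepS (k : ℤ) (v : V) (d : ℤ) : Finset Edge :=
  if k = 0 then {edgeOf v (v + pt k 0 1)}
  else {edgeOf v (midV v d), edgeOf (midV v d) (v + pt k 0 1)}

theorem stepS_card (k : ℤ) (v : V) (d : ℤ) : (stepS k v d).card ≤ 2 := by
  unfold stepS
  split_ifs
  · simp
  · exact Finset.card_le_two

theorem midV_spec (v : V) {d : ℤ} (hd : d = -1 ∨ d = 1) :
    Adj v (midV v d) ∧ Adj (midV v d) (v + pt 1 0 1) ∧ lev 1 (midV v d) = lev 1 v + d := by
  rcases hd with rfl | rfl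
  · refine ⟨by simp [midV, adj_iff], ?_, by simp [midV, lev]; ring⟩
    simp [midV, adj_iff, pt]; ring_nf
  · exact ⟨by simp [midV, adj_iff], by simp [midV, adj_iff, pt], by simp [midV, lev]; ring⟩

/-- The ends of the step edges are next to the level line. -/
theorem stepS_lev {k : ℤ} (hk : k = 0 ∨ k = 1) {v : V} {d : ℤ} (hd : d = -1 ∨ d = 1) {e : Edge}
    (he : e ∈ stepS k v d) : |lev k (eFst e) - lev k v| ≤ 1 := by
  have h : ∀ x y, Adj x y → (lev k x = lev k v ∨ lev k x = lev k v + d) →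
      (lev k y = lev k v ∨ lev k y = lev k v + d) →
      |lev k (eFst (edgeOf x y)) - lev k v| ≤ 1 := by
    intro x y hxy hx hy
    rw [abs_le]
    rcases ends_edgeOf hxy with ⟨e1, -⟩ | ⟨e1, -⟩ <;> rw [e1] <;> omega
  rcases hk with rfl | rfl
  · simp only [stepS, if_true, Finset.mem_singleton] at he
    subst he
    exact h _ _ (by simp [adj_iff, pt]) (Or.inl rfl) (Or.inl (by simp [lev, pt]))
  · obtain ⟨hu1, hu2, hu3⟩ := midV_spec v hd
    simp only [stepS, one_ne_zero, if_false, Finset.mem_insert, Finset.mem_singleton] at he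
    rcases he with rfl | rfl
    · exact h _ _ hu1 (Or.inl rfl) (Or.inr hu3)
    · exact h _ _ hu2 (Or.inr hu3) (Or.inl (by simp [lev, pt]; ring))

/-- Neighbouring targets are joined by two steps staying on their side. -/
theorem step_walk {t : Conf} {k : ℤ} (hk : k = 0 ∨ k = 1) {S : Set Edge} {v : V} {d : ℤ}
    (hd : d = -1 ∨ d = 1)
    (hS : ∀ x y, Adj x y → (lev k x = lev k v ∨ lev k x = lev k v + d) →
      (lev k y = lev k v ∨ lev k y = lev k v + d) → edgeOf x y ∈ S) :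
    ∃ p : grid.Walk v (v + pt k 0 1), WalkIn S p ∧ plen t p = ∑ e ∈ stepS k v d, t e := by
  rcases hk with rfl | rfl
  · have h : grid.Adj v (v + pt 0 0 1) := by show Adj _ _; simp [adj_iff, pt]
    refine ⟨.cons h .nil, fun e he => ?_, ?_⟩
    · simp only [SimpleGraph.Walk.darts_cons, SimpleGraph.Walk.darts_nil, List.mem_cons,
        List.not_mem_nil, or_false] at he
      subst he
      exact hS _ _ h (Or.inl rfl) (Or.inl (by simp [lev, pt]))
    · simp [plen, wt, stepS]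
  · obtain ⟨hu1, hu2, hu3⟩ := midV_spec v hd
    refine ⟨.cons (show grid.Adj v _ from hu1) (.cons (show grid.Adj _ _ from hu2) .nil),
      fun e he => ?_, ?_⟩
    · simp only [SimpleGraph.Walk.darts_cons, SimpleGraph.Walk.darts_nil, List.mem_cons,
        List.not_mem_nil, or_false] at he
      rcases he with rfl | rfl
      · exact hS _ _ hu1 (Or.inl rfl) (Or.inr hu3)
      · exact hS _ _ hu2 (Or.inr hu3) (Or.inl (by simp [lev, pt]; ring))
    · have hne : edgeOf v (midV v d) ≠ edgeOf (midV v d) (v + pt 1 0 1) := by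
        intro he
        rcases (edgeOf_eq_iff hu1 hu2).1 he with ⟨e1, -⟩ | ⟨e1, -⟩
        · exact Adj.ne hu1 e1
        · simp [pt, Prod.ext_iff] at e1
      simp [plen, wt, stepS, Finset.sum_pair hne]

/-- The count in one configuration. -/
theorem card_obj_le {t : Conf} {δ : ℝ} (h0 : ∀ e, 0 ≤ t e) (hδ : 0 < δ) {k : ℤ}
    (hk : k = 0 ∨ k = 1) {n Y J : ℕ} (hn : 2 ≤ n) {w : V} (hw : w ∈ preds k) {a b : Fin m → ℝ}
    (hsep : ∀ u v, u < v → b u * n + Y ≤ a v * n) (O : Finset (ℕ × Fin m))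
    (hO : ∀ o ∈ O, o.1 < Y ∧ Obj δ k n (a o.2) (b o.2) J w o.1 t) :
    δ * O.card ≤ 4 * ((J : ℝ) + 1) * (δ * m + 2 * ∑ u ∈ Finset.range Y,
      ((∑ e ∈ stepS k (w + pt k 0 (u : ℤ)) (-1), t e) + ∑ e ∈ stepS k (pt k 0 (u : ℤ)) 1, t e)) := by
  classical
  obtain ⟨hwA, hwL⟩ := preds_spec hw
  have hex : ∀ o : ℕ × Fin m, ∃ (x z : V) (p : grid.Walk x (w + pt k 0 o.1))
      (q : grid.Walk (pt k 0 o.1) z), o ∈ O →
        Shape k n (a o.2) (b o.2) J w o.1 p q ∧
        ∀ r : grid.Walk x z, WalkIn {eH k w o.1}ᶜ r →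
          plen t p + t (eH k w o.1) + plen t q + δ ≤ plen t r := by
    intro o
    by_cases ho : o ∈ O
    · obtain ⟨x, z, p, q, h, hm, -⟩ := (hO o ho).2
      exact ⟨x, z, p, q, fun _ => ⟨h, hm⟩⟩
    · exact ⟨_, _, .nil, .nil, fun h => absurd h ho⟩
  choose x z p q hpq using hex
  set F : ℕ × Fin m → Finset ℕ := fun o => (O.image Prod.fst).filter fun h => h ≠ o.1 ∧
    ((∃ d ∈ (p o).darts, edgeOf d.toProd.1 d.toProd.2 = eH k w h) ∨
      ∃ d ∈ (q o).darts, edgeOf d.toProd.1 d.toProd.2 = eH k w h) with hFdef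
  have hFJ : ∀ o ∈ O, (F o).card ≤ J := by
    intro o ho
    obtain ⟨-, -, -, -, -, -, h7, -⟩ := (hpq o ho).1
    refine le_of_eq_of_le (Finset.card_image_of_injective (F o) Nat.cast_injective).symm
      (h7 ((F o).image ((↑) : ℕ → ℤ)) fun h hh => ?_)
    obtain ⟨h', hh', rfl⟩ := Finset.mem_image.1 hh
    exact (Finset.mem_filter.1 hh').2.2
  obtain ⟨K, hKO, hKcard, hKfree⟩ := exists_select O F hFJ
    fun o _ h => (Finset.mem_filter.1 h).2.1 rfl
  set E : Set Edge := {e | ∃ r ∈ K, e = eH k w r.1}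
  set SA : Set Edge := rigE k (-(n : ℤ)) \ E with hSA
  set SB : Set Edge := lefE k (n : ℤ) \ E with hSB
  have hlevH : ∀ h : ℤ, lev k (w + pt k 0 h) = -1 ∧ lev k (pt k 0 h) = 0 := fun h =>
    ⟨by rw [lev_add_pt, hwL], by simp [lev, pt]⟩
  have hnotE : ∀ u v, Adj u v → (lev k u ≤ -1 ∧ lev k v ≤ -1 ∨ 0 ≤ lev k u ∧ 0 ≤ lev k v) →
      edgeOf u v ∉ E := by
    rintro u v huv hl ⟨r, -, he⟩
    rcases (edgeOf_eq_iff huv (eH_adj hwA _)).1 he with ⟨rfl, rfl⟩ | ⟨rfl, rfl⟩ <;>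
    · have := hlevH r.1
      omega
  have hfree : ∀ o ∈ K, WalkIn Eᶜ (p o) ∧ WalkIn Eᶜ (q o) := by
    intro o ho
    obtain ⟨-, -, -, -, h5, h6, -⟩ := (hpq o (hKO ho)).1
    constructor <;> rintro d hd ⟨r, hr, he⟩ <;>
    · rcases eq_or_ne r.1 o.1 with hro | hro
      · rw [hro] at he
        first | exact h5 d hd he | exact h6 d hd he
      · refine hKfree o ho r hr (Finset.mem_filter.2
          ⟨Finset.mem_image_of_mem _ (hKO hr), hro, ?_⟩)
        first | exact Or.inl ⟨d, hd, he⟩ | exact Or.inr ⟨d, hd, he⟩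
  have hside : ∀ (S : Set Edge), ∀ {u v : V} (r : grid.Walk u v),
      (∀ d ∈ r.darts, edgeOf d.toProd.1 d.toProd.2 ∈ S) → WalkIn S r := fun _ _ _ _ h => h
  have hpA : ∀ o ∈ K, WalkIn SA (p o) := fun o ho d hd => by
    obtain ⟨-, -, h3, -⟩ := (hpq o (hKO ho)).1
    have h1 := h3 _ ((p o).dart_fst_mem_support_of_mem_darts hd)
    have h2 := h3 _ ((p o).dart_snd_mem_support_of_mem_darts hd)
    refine ⟨?_, (hfree o ho).1 d hd⟩
    rcases ends_edgeOf d.adj with ⟨e1, e2⟩ | ⟨e1, e2⟩ <;>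
      simp only [rigE, Set.mem_ofPred_eq, e1, e2] <;> exact ⟨by omega, by omega⟩
  have hqB : ∀ o ∈ K, WalkIn SB (q o) := fun o ho d hd => by
    obtain ⟨-, -, -, h4, -⟩ := (hpq o (hKO ho)).1
    have h1 := h4 _ ((q o).dart_fst_mem_support_of_mem_darts hd)
    have h2 := h4 _ ((q o).dart_snd_mem_support_of_mem_darts hd)
    refine ⟨?_, (hfree o ho).2 d hd⟩
    rcases ends_edgeOf d.adj with ⟨e1, e2⟩ | ⟨e1, e2⟩ <;>
      simp only [lefE, Set.mem_ofPred_eq, e1, e2] <;> exact ⟨by omega, by omega⟩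
  set tA : ℕ → V := fun u => w + pt k 0 (u : ℤ) with htA
  set tB : ℕ → V := fun u => pt k 0 (u : ℤ) with htB
  have hptsucc : ∀ u : ℕ, pt k 0 ((u + 1 : ℕ) : ℤ) = pt k 0 (u : ℤ) + pt k 0 1 := fun u => by
    rw [pt_add]; push_cast; rfl
  set cA : ℕ → ℝ := fun u => ∑ e ∈ stepS k (w + pt k 0 (u : ℤ)) (-1), t e with hcAdef
  set cB : ℕ → ℝ := fun u => ∑ e ∈ stepS k (pt k 0 (u : ℤ)) 1, t e with hcBdef
  have hstepA : ∀ u, ∃ r : grid.Walk (tA u) (tA (u + 1)), WalkIn SA r ∧ plen t r ≤ cA u := by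
    intro u
    obtain ⟨r, hr, hlen⟩ := step_walk (t := t) hk (S := SA) (v := tA u) (d := -1) (Or.inl rfl)
      fun x y hxy hx hy => by
        rw [(hlevH u).1] at hx hy
        refine ⟨?_, hnotE x y hxy (Or.inl ⟨by omega, by omega⟩)⟩
        rcases ends_edgeOf hxy with ⟨e1, e2⟩ | ⟨e1, e2⟩ <;>
          simp only [rigE, Set.mem_ofPred_eq, e1, e2] <;> exact ⟨by omega, by omega⟩
    exact ⟨r.copy rfl (by simp only [htA]; rw [hptsucc, add_assoc]), hr.copy _ _,
      by rw [plen_copy]; exact hlen.le⟩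
  have hstepB : ∀ u, ∃ r : grid.Walk (tB u) (tB (u + 1)), WalkIn SB r ∧ plen t r ≤ cB u := by
    intro u
    obtain ⟨r, hr, hlen⟩ := step_walk (t := t) hk (S := SB) (v := tB u) (d := 1) (Or.inr rfl)
      fun x y hxy hx hy => by
        rw [(hlevH u).2] at hx hy
        refine ⟨?_, hnotE x y hxy (Or.inr ⟨by omega, by omega⟩)⟩
        rcases ends_edgeOf hxy with ⟨e1, e2⟩ | ⟨e1, e2⟩ <;>
          simp only [lefE, Set.mem_ofPred_eq, e1, e2] <;> exact ⟨by omega, by omega⟩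
    exact ⟨r.copy rfl (by simp only [htB]; rw [hptsucc]), hr.copy _ _,
      by rw [plen_copy]; exact hlen.le⟩
  have hchain : ∀ (S : Set Edge) (g : ℕ → V) (c : ℕ → ℝ),
      (∀ u, ∃ r : grid.Walk (g u) (g (u + 1)), WalkIn S r ∧ plen t r ≤ c u) →
      ∀ u v, ConnIn S (g u) (g v) := by
    intro S g c hg
    have h : ∀ u, ConnIn S (g 0) (g u) := fun u => by
      induction u with
      | zero => exact ConnIn.refl _
      | succ u ih =>
        obtain ⟨r, hr, -⟩ := hg u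
        exact ih.trans ⟨r, hr⟩
    exact fun u v => (h u).symm.trans (h v)
  have hcA : ∀ o ∈ K, ∀ u, ConnIn SA (x o) (tA u) := fun o ho u =>
    ConnIn.trans ⟨p o, hpA o ho⟩ (hchain SA tA cA hstepA o.1 u)
  have hcB : ∀ o ∈ K, ∀ u, ConnIn SB (z o) (tB u) := fun o ho u =>
    ConnIn.trans ⟨(q o).reverse, (hqB o ho).reverse⟩ (hchain SB tB cB hstepB o.1 u)
  obtain ⟨P, hP, huniq, hPcard⟩ := exists_pairs K
  have hP' : ∀ r ∈ P, r.1 ∈ K ∧ r.2 ∈ K ∧ r.1.2 = r.2.2 ∧ r.1.1 < r.2.1 ∧ r.2.1 < Y :=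
    fun r hr => ⟨(hP r hr).1, (hP r hr).2.1, (hP r hr).2.2.1, (hP r hr).2.2.2,
      (hO _ (hKO (hP r hr).2.1)).1⟩
  set lA : ℕ × Fin m → V := fun o => if o ∈ K then x o else (-(n : ℤ), 0) with hlA
  set lB : ℕ × Fin m → V := fun o => if o ∈ K then z o else ((n : ℤ), 0) with hlB
  have hlAlev : ∀ o, lev k (lA o) = -(n : ℤ) := fun o => by
    simp only [hlA]; split_ifs with h
    · exact (hpq o (hKO h)).1.1
    · simp [lev]
  have hlBlev : ∀ o, lev k (lB o) = (n : ℤ) := fun o => by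
    simp only [hlB]; split_ifs with h
    · exact (hpq o (hKO h)).1.2.1
    · simp [lev]
  have sA := side_sum_le h0 (S := SA) cA lA (fun o => -(lA o).2) tA
    (fun o₁ o₂ o₃ o₄ h12 h23 h34 P Q hP' hQ' => by
      have hsup : ∀ {u v : V} (r : grid.Walk u v), WalkIn SA r → lev k u = -(n : ℤ) →
          ∀ y ∈ r.reverse.support, -(n : ℤ) ≤ lev k y := fun r hr hu y hy => by
        rw [SimpleGraph.Walk.support_reverse, List.mem_reverse] at hy
        exact le_lev_of_walkIn (hr.mono Set.sdiff_subset) hu.ge y hy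
      obtain ⟨y, h1, h2⟩ := meet_right hk (L := -(n : ℤ)) Q.reverse P.reverse
        (hsup Q hQ' (hlAlev _)) (hsup P hP' (hlAlev _)) (hlAlev _) (hlAlev _) (hlAlev _)
        (hlAlev _) (by omega) (by omega) (by omega)
      rw [SimpleGraph.Walk.support_reverse, List.mem_reverse] at h1 h2
      exact ⟨y, h2, h1⟩)
    hstepA K (fun o ho u => by rw [hlA]; simp only [if_pos ho]; exact hcA o ho u)
    (fun o ho r hr hlt => by
      simp only [hlA, if_pos ho, if_pos hr]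
      obtain ⟨-, -, -, -, -, -, -, ⟨-, h8⟩, -⟩ := (hpq o (hKO ho)).1
      obtain ⟨-, -, -, -, -, -, -, ⟨h8', -⟩, -⟩ := (hpq r (hKO hr)).1
      have hy : ((r.1 : ℕ) : ℝ) ≤ Y := by exact_mod_cast (hO r (hKO hr)).1.le
      have := hsep _ _ hlt
      have : (0 : ℝ) ≤ (o.1 : ℕ) := Nat.cast_nonneg _
      have : -((x o).2 : ℝ) ≤ -((x r).2 : ℝ) := by push_cast at h8 h8'; linarith
      exact_mod_cast this)
    P hP' huniq
  have sB := side_sum_le h0 (S := SB) cB lB (fun o => (lB o).2) tB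
    (fun o₁ o₂ o₃ o₄ h12 h23 h34 P Q hP' hQ' => meet_left hk (L := (n : ℤ)) P Q
      (lev_le_of_walkIn (hP'.mono Set.sdiff_subset) (hlBlev _).le)
      (lev_le_of_walkIn (hQ'.mono Set.sdiff_subset) (hlBlev _).le)
      (hlBlev _) (hlBlev _) (hlBlev _) (hlBlev _) h12 h23 h34)
    hstepB K (fun o ho u => by rw [hlB]; simp only [if_pos ho]; exact hcB o ho u)
    (fun o ho r hr hlt => by
      simp only [hlB, if_pos ho, if_pos hr]
      obtain ⟨-, -, -, -, -, -, -, -, ⟨-, h9⟩⟩ := (hpq o (hKO ho)).1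
      obtain ⟨-, -, -, -, -, -, -, -, ⟨h9', -⟩⟩ := (hpq r (hKO hr)).1
      have hy : ((o.1 : ℕ) : ℝ) ≤ Y := by exact_mod_cast (hO o (hKO ho)).1.le
      have := hsep _ _ hlt
      have : (0 : ℝ) ≤ (r.1 : ℕ) := Nat.cast_nonneg _
      have : ((z o).2 : ℝ) ≤ ((z r).2 : ℝ) := by push_cast at h9 h9'; linarith
      exact_mod_cast this)
    P hP' huniq
  set A := fun o u => TS t SA (x o) (tA u)
  set B := fun o u => TS t SB (z o) (tB u)
  have hmargin : ∀ o ∈ K, ∀ r ∈ K, r.1 ≠ o.1 →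
      δ + t (eH k w o.1) - t (eH k w r.1) ≤ A o r.1 + B o r.1 - A o o.1 - B o o.1 := by
    intro o ho r hr hne
    have hAo : A o o.1 ≤ plen t (p o) := TS_le h0 (hpA o ho)
    have hBo : B o o.1 ≤ plen t (q o) := by
      have := TS_le h0 (hqB o ho).reverse
      rwa [plen_reverse] at this
    refine le_of_forall_pos_le_add fun ε hε => ?_
    obtain ⟨W0, hW0⟩ := hcA o ho r.1
    obtain ⟨_, ⟨W, hW, rfl⟩, hlt⟩ := exists_lt_of_csInf_lt
      (s := plen t '' {v : grid.Walk (x o) (tA r.1) | WalkIn SA v}) ⟨_, W0, hW0, rfl⟩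
      (show TS t SA (x o) (tA r.1) < TS t SA (x o) (tA r.1) + ε / 2 by linarith)
    obtain ⟨W0', hW0'⟩ := hcB o ho r.1
    obtain ⟨_, ⟨W', hW', rfl⟩, hlt'⟩ := exists_lt_of_csInf_lt
      (s := plen t '' {v : grid.Walk (z o) (tB r.1) | WalkIn SB v}) ⟨_, W0', hW0', rfl⟩
      (show TS t SB (z o) (tB r.1) < TS t SB (z o) (tB r.1) + ε / 2 by linarith)
    have hgap := (hpq o (hKO ho)).2
      (W.append (.cons (show grid.Adj (tA r.1) (tB r.1) from eH_adj hwA _) W'.reverse)) (by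
        intro d hd
        rw [SimpleGraph.Walk.darts_append, SimpleGraph.Walk.darts_cons, List.mem_append,
          List.mem_cons] at hd
        rcases hd with hd | rfl | hd
        · exact fun he => (hW d hd).2 ⟨o, ho, he⟩
        · exact fun he => hne (by exact_mod_cast eH_inj (Set.mem_singleton_iff.1 he))
        · exact fun he => (WalkIn.reverse hW' d hd).2 ⟨o, ho, he⟩)
    rw [plen_append, plen_cons, plen_reverse] at hgap
    have he : wt t (tA r.1) (tB r.1) = t (eH k w r.1) := rfl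
    simp only [A, B] at hAo hBo ⊢
    linarith
  have hlow : (P.card : ℝ) * (2 * δ) ≤
      4 * ∑ u ∈ Finset.range Y, cA u + 4 * ∑ u ∈ Finset.range Y, cB u := by
    refine le_trans ?_ (add_le_add sA sB)
    rw [← nsmul_eq_mul, ← Finset.sum_const, ← Finset.sum_add_distrib]
    refine Finset.sum_le_sum fun r hr => ?_
    obtain ⟨h1, h2, -, h4, -⟩ := hP' r hr
    have m1 := hmargin r.1 h1 r.2 h2 (by omega)
    have m2 := hmargin r.2 h2 r.1 h1 (by omega)
    simp only [A, B] at m1 m2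
    simp only [hlA, hlB, if_pos h1, if_pos h2]
    refine le_trans ?_ (add_le_add (le_abs_self _) (le_abs_self _))
    linarith
  have hcard' : (K.card : ℝ) ≤ P.card + m := by exact_mod_cast hPcard
  have hfinal : δ * K.card ≤ δ * m + 2 * ∑ u ∈ Finset.range Y, (cA u + cB u) := by
    rw [Finset.sum_add_distrib]
    nlinarith [mul_le_mul_of_nonneg_left hcard' hδ.le]
  calc δ * O.card ≤ δ * (4 * ((J : ℝ) + 1) * K.card) := mul_le_mul_of_nonneg_left hKcard hδ.le
    _ = 4 * ((J : ℝ) + 1) * (δ * K.card) := by ring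
    _ ≤ _ := mul_le_mul_of_nonneg_left hfinal (by positivity)

end Vale.Agent.P158.SlopeAux
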